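import Vale.Agent.P305F35.Defs
import Vale.Agent.P305.MM.Model

/-! Compilation of structured programs to programs with jumps. -/

namespace Vale.Agent.P305F35

open Vale.Agent.P305 Vale.Agent.P305.MM Function

/-- Branch to `x` if the test holds and to `y` if not. -/
def br : Test → ℕ → ℕ → List Instr
  | .lt a b, x, y => [.jumpLt a b x, .jump y]
  | .eq a b, x, y => [.jumpEq a b x, .jump y]
  | .ne a b, x, y => [.jumpEq a b y, .jump x]

/-- Length of the compiled code. -/
def size : RProg → ℕ
  | .const .. | .load .. | .store .. | .coin .. => 1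
  | .op .. => 4
  | .seq p q => size p + size q
  | .ite _ p q => 2 + (size p + (1 + size q))
  | .loop _ p => 2 + (size p + 1)

/-- Is the operation the subtraction? -/
def isSub : Op → Bool
  | .sub => true
  | _ => false

/-- The compiled code, to be placed at line `l`. -/
def comp : RProg → ℕ → List Instr
  | .const d c, _ => [.const d c]
  | .load d a, _ => [.load d a]
  | .store a b, _ => [.store a b]
  | .coin d, _ => [.coin d]
  | .op o d a b, l => [if isSub o then .jumpLt a b (l + 3) else .jump (l + 1), .op o d a b,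
      .jump (l + 4), .const d 0]
  | .seq p q, l => comp p l ++ comp q (l + size p)
  | .ite c p q, l => br c (l + 2) (l + 2 + size p + 1) ++ (comp p (l + 2) ++
      ([.jump (l + size (.ite c p q))] ++ comp q (l + 2 + size p + 1)))
  | .loop c p, l => br c (l + 2) (l + size (.loop c p)) ++ (comp p (l + 2) ++ [.jump l])

theorem length_br (c : Test) (x y : ℕ) : (br c x y).length = 2 := by cases c <;> rfl

theorem length_comp (p : RProg) : ∀ l, (comp p l).length = size p := by
  induction p with
  | seq p q hp hq => intro l; simp [comp, size, hp, hq]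
  | ite c p q hp hq => intro l; simp [comp, size, hp, hq, length_br]; omega
  | loop c p hp => intro l; simp [comp, size, hp, length_br]
  | _ => intro l; rfl

/-- The code `K` stands in `P` from line `l` on. -/
def At (P : List Instr) (l : ℕ) (K : List Instr) : Prop :=
  ∀ i x, K[i]? = some x → P[l + i]? = some x

theorem At.left {P l K K'} (h : At P l (K ++ K')) : At P l K := fun i x hx =>
  h i x (by rw [List.getElem?_append_left (List.getElem?_eq_some_iff.1 hx).1, hx])

theorem At.right {P l K K'} (h : At P l (K ++ K')) {l' : ℕ} (e : l + K.length = l') :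
    At P l' K' := fun i x hx => by
  rw [← e, add_assoc]
  exact h _ x (by rw [List.getElem?_append_right (by omega), Nat.add_sub_cancel_left, hx])

variable {w : ℕ} {P : List Instr} {ω : ℕ → Bool}

/-- The configuration `c` is at line `l`, has drawn `i` bits and holds the state `s`. -/
structure Rel (c : Config w) (l : ℕ) (s : State) (i : ℕ) : Prop where
  pc : c.pc = l
  reg : ∀ r, (c.reg r).toNat = s.reg r
  mem : ∀ x, (c.mem x).toNat = s.mem x.toNat
  drawn : c.drawn = i

/-- From every configuration representing the first data, one representing the second data is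
reached in at most `t` steps. -/
def Go (w : ℕ) (P : List Instr) (ω : ℕ → Bool) (l : ℕ) (s : State) (i t l' : ℕ) (s' : State)
    (i' : ℕ) : Prop :=
  ∀ c : Config w, Rel c l s i → ∃ τ ≤ t, Rel ((step P ω)^[τ] c) l' s' i'

theorem Go.trans {l s i t l' s' i' t' l'' s'' i''} (h : Go w P ω l s i t l' s' i')
    (h' : Go w P ω l' s' i' t' l'' s'' i'') : Go w P ω l s i (t + t') l'' s'' i'' := by
  intro c hc
  obtain ⟨τ, h1, h2⟩ := h c hc
  obtain ⟨τ', h3, h4⟩ := h' _ h2
  exact ⟨τ' + τ, by omega, by rwa [iterate_add_apply]⟩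

theorem Go.mono {l s i t t' l' l'' s' i'} (h : Go w P ω l s i t l' s' i') (ht : t ≤ t')
    (e : l' = l'') : Go w P ω l s i t' l'' s' i' := fun c hc =>
  let ⟨τ, h1, h2⟩ := h c hc; ⟨τ, h1.trans ht, e ▸ h2⟩

theorem Go.one {l s i l' s' i'} {x : Instr} (hx : P[l]? = some x)
    (h : ∀ c : Config w, Rel c l s i → Rel (exec ω c x) l' s' i') : Go w P ω l s i 1 l' s' i' :=
  fun c hc => ⟨1, le_rfl, by simpa only [iterate_one, step, hc.pc, hx, Option.elim_some] using h c hc⟩

theorem Go.jump {l s i l'} (hx : P[l]? = some (.jump l')) : Go w P ω l s i 1 l' s i :=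
  Go.one hx fun _ hc => ⟨rfl, hc.reg, hc.mem, hc.drawn⟩

theorem Go.jumpLt {l s i a b l'} (hx : P[l]? = some (.jumpLt a b l')) :
    Go w P ω l s i 1 (if s.reg a < s.reg b then l' else l + 1) s i :=
  Go.one hx fun c hc => ⟨by simp only [exec, BitVec.lt_def, hc.reg, hc.pc], hc.reg, hc.mem, hc.drawn⟩

theorem Go.jumpEq {l s i a b l'} (hx : P[l]? = some (.jumpEq a b l')) :
    Go w P ω l s i 1 (if s.reg a = s.reg b then l' else l + 1) s i :=
  Go.one hx fun c hc =>
    ⟨by simp only [exec, ← BitVec.toNat_inj, hc.reg, hc.pc], hc.reg, hc.mem, hc.drawn⟩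

theorem Rel.set {c : Config w} {l s i} (hc : Rel c l s i) (d : ℕ) {x : BitVec w} {v i' : ℕ}
    (hx : x.toNat = v) :
    Rel ⟨c.pc + 1, update c.reg d x, c.mem, i'⟩ (l + 1) ⟨update s.reg d v, s.mem⟩ i' := by
  refine ⟨by rw [hc.pc], fun r => ?_, hc.mem, rfl⟩
  simp only [update_apply]
  split_ifs
  · exact hx
  · exact hc.reg r

theorem Go.br_pos {l s i x y} {c : Test} (h : At P l (br c x y)) (hc : c.holds s.reg) :
    Go w P ω l s i 2 x s i := by
  cases c with
  | lt a b => exact (Go.jumpLt (h 0 _ rfl)).mono (by omega) (if_pos hc)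
  | eq a b => exact (Go.jumpEq (h 0 _ rfl)).mono (by omega) (if_pos hc)
  | ne a b => exact ((Go.jumpEq (h 0 _ rfl)).mono le_rfl (if_neg hc)).trans (Go.jump (h 1 _ rfl))

theorem Go.br_neg {l s i x y} {c : Test} (h : At P l (br c x y)) (hc : ¬ c.holds s.reg) :
    Go w P ω l s i 2 y s i := by
  cases c with
  | lt a b => exact ((Go.jumpLt (h 0 _ rfl)).mono le_rfl (if_neg hc)).trans (Go.jump (h 1 _ rfl))
  | eq a b => exact ((Go.jumpEq (h 0 _ rfl)).mono le_rfl (if_neg hc)).trans (Go.jump (h 1 _ rfl))
  | ne a b => exact (Go.jumpEq (h 0 _ rfl)).mono (by omega) (if_pos (not_not.1 hc))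

theorem toNat_opWord (o : Op) (x y : BitVec w) (h : o.eval x.toNat y.toNat < 2 ^ w)
    (hs : isSub o = true → y.toNat ≤ x.toNat) : (opWord o x y).toNat = o.eval x.toNat y.toNat := by
  cases o with
  | add => exact (BitVec.toNat_add x y).trans (Nat.mod_eq_of_lt h)
  | sub => exact BitVec.toNat_sub_of_le (BitVec.le_def.2 (hs rfl))
  | mul => exact (BitVec.toNat_mul x y).trans (Nat.mod_eq_of_lt h)
  | div => exact BitVec.toNat_udiv
  | mod => exact BitVec.toNat_umod
  | land => exact BitVec.toNat_and x y
  | lor => exact BitVec.toNat_or x y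
  | xor => exact BitVec.toNat_xor x y
  | shl => exact BitVec.toNat_shiftLeft.trans (Nat.mod_eq_of_lt h)
  | shr => exact BitVec.toNat_ushiftRight x _

theorem go_comp {W : ℕ} (hW : W < 2 ^ w) {p s i t s' i'} (h : RExec W ω p s i t s' i') :
    ∀ l, At P l (comp p l) → Go w P ω l s i (3 * t) (l + size p) s' i' := by
  induction h with
  | const s i d k h =>
    refine fun l hl => (Go.one (hl 0 _ rfl) fun c hc => ?_).mono (by omega) rfl
    exact hc.drawn ▸ hc.set d ((BitVec.toNat_ofNat k w).trans (Nat.mod_eq_of_lt (by omega)))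
  | op s i o d a b h =>
    intro l hl
    have h2 : (isSub o = true → s.reg b ≤ s.reg a) → Go w P ω (l + 1) s i 2 (l + 4)
        ⟨update s.reg d (o.eval (s.reg a) (s.reg b)), s.mem⟩ i := fun hs =>
      (Go.one (l := l + 1) (hl 1 _ rfl) fun c hc => hc.drawn ▸ hc.set d (by
        rw [toNat_opWord o _ _ (by rw [hc.reg, hc.reg]; omega) (by rwa [hc.reg, hc.reg]),
          hc.reg, hc.reg])).trans (Go.jump (l := l + 1 + 1) (hl 2 _ rfl))
    by_cases hs : isSub o = true
    · have h0 : P[l]? = some (.jumpLt a b (l + 3)) := hl 0 _ (by simp [comp, hs])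
      by_cases hab : s.reg a < s.reg b
      · have h3 : o.eval (s.reg a) (s.reg b) = 0 := by
          cases o <;> simp [isSub] at hs
          exact Nat.sub_eq_zero_of_le hab.le
        rw [h3]
        exact (((Go.jumpLt h0).mono le_rfl (if_pos hab)).trans (Go.one (l := l + 3) (hl 3 _ rfl)
          fun c hc => hc.drawn ▸ hc.set d (by simp))).mono (by omega) rfl
      · exact ((Go.jumpLt h0).mono le_rfl (if_neg hab)).trans (h2 fun _ => not_lt.1 hab)
    · have h0 : P[l]? = some (.jump (l + 1)) := hl 0 _ (by simp [comp, hs])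
      exact (Go.jump h0).trans (h2 fun h => absurd h hs)
  | load s i d a =>
    refine fun l hl => (Go.one (hl 0 _ rfl) fun c hc => ?_).mono (by omega) rfl
    exact hc.drawn ▸ hc.set d (by rw [hc.mem, hc.reg])
  | store s i a b =>
    refine fun l hl => (Go.one (hl 0 _ rfl) fun c hc => ?_).mono (by omega) rfl
    refine ⟨congrArg (· + 1) hc.pc, hc.reg, fun x => ?_, hc.drawn⟩
    simp only [exec, update_apply, ← BitVec.toNat_inj, hc.reg]
    split_ifs
    · exact hc.reg b
    · exact hc.mem x
  | coin s i d h =>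
    refine fun l hl => (Go.one (hl 0 _ rfl) fun c hc => ?_).mono (by omega) rfl
    rw [← hc.drawn]
    refine hc.set d ?_
    split_ifs
    · exact (BitVec.toNat_ofNat 1 w).trans (Nat.mod_eq_of_lt (by omega))
    · simp
  | seq p q s s' s'' i i' i'' t t' _ _ ih ih' =>
    exact fun l hl => ((ih l hl.left).trans (ih' _ (hl.right (by rw [length_comp])))).mono
      (by omega) (by simp only [size]; omega)
  | iteTrue c p q s s' i i' t hc _ ih =>
    intro l hl
    have h1 := hl.right (l' := l + 2) (by rw [length_br])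
    have h2 := h1.right (l' := l + 2 + size p) (by rw [length_comp])
    exact (((Go.br_pos hl.left hc).trans (ih _ h1.left)).trans (Go.jump (h2 0 _ rfl))).mono
      (by omega) rfl
  | iteFalse c p q s s' i i' t hc _ ih =>
    intro l hl
    have h1 := hl.right (l' := l + 2) (by rw [length_br])
    have h2 := h1.right (l' := l + 2 + size p) (by rw [length_comp])
    exact ((Go.br_neg hl.left hc).trans (ih _ (h2.right rfl))).mono (by omega)
      (by simp only [size]; omega)
  | loopDone c p s i hc => exact fun l hl => (Go.br_neg hl.left hc).mono (by omega) rfl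
  | loopStep c p s s' s'' i i' i'' t t' hc _ _ ih ih' =>
    intro l hl
    have h1 := hl.right (l' := l + 2) (by rw [length_br])
    have h2 := h1.right (l' := l + 2 + size p) (by rw [length_comp])
    exact ((((Go.br_pos hl.left hc).trans (ih _ h1.left)).trans (Go.jump (h2 0 _ rfl))).trans
      (ih' l hl)).mono (by omega) rfl

end Vale.Agent.P305F35
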