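import Vale.Agent.P305.Model
import Mathlib.Probability.ProductMeasure
import Mathlib.Probability.UniformOn

/-!
# The word RAM with jumps, wrap-around words and fair random bits (P305)
-/

namespace Vale.Agent.P305F35

open Vale.Agent.P305 MeasureTheory

/-- Instructions; `d`, `a`, `b` are names of registers, `l` is a line number of the program. -/
inductive Instr
  | const (d c : ℕ)
  | op (o : Op) (d a b : ℕ)
  | load (d a : ℕ)
  | store (a b : ℕ)
  | coin (d : ℕ)
  | jump (l : ℕ)
  | jumpLt (a b l : ℕ)
  | jumpEq (a b l : ℕ)

/-- The operations on `w`-bit words: arithmetic modulo `2 ^ w`, unsigned division and remainder,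
bitwise operations, shifts. -/
def opWord {w : ℕ} : Op → BitVec w → BitVec w → BitVec w
  | .add, x, y => x + y
  | .sub, x, y => x - y
  | .mul, x, y => x * y
  | .div, x, y => x / y
  | .mod, x, y => x % y
  | .land, x, y => x &&& y
  | .lor, x, y => x ||| y
  | .xor, x, y => x ^^^ y
  | .shl, x, y => x <<< y.toNat
  | .shr, x, y => x >>> y.toNat

/-- A configuration of the machine with `w`-bit words: program counter, registers, the `2 ^ w`
memory cells, and the number of random bits drawn so far. -/
structure Config (w : ℕ) where
  pc : ℕ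
  reg : ℕ → BitVec w
  mem : BitVec w → BitVec w
  drawn : ℕ

/-- The effect of one instruction; `ω 0, ω 1, …` are the random bits. -/
def exec {w : ℕ} (ω : ℕ → Bool) (c : Config w) : Instr → Config w
  | .const d k => ⟨c.pc + 1, Function.update c.reg d (BitVec.ofNat w k), c.mem, c.drawn⟩
  | .op o d a b => ⟨c.pc + 1, Function.update c.reg d (opWord o (c.reg a) (c.reg b)), c.mem, c.drawn⟩
  | .load d a => ⟨c.pc + 1, Function.update c.reg d (c.mem (c.reg a)), c.mem, c.drawn⟩
  | .store a b => ⟨c.pc + 1, c.reg, Function.update c.mem (c.reg a) (c.reg b), c.drawn⟩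
  | .coin d => ⟨c.pc + 1, Function.update c.reg d (if ω c.drawn then 1 else 0), c.mem, c.drawn + 1⟩
  | .jump l => ⟨l, c.reg, c.mem, c.drawn⟩
  | .jumpLt a b l => ⟨if c.reg a < c.reg b then l else c.pc + 1, c.reg, c.mem, c.drawn⟩
  | .jumpEq a b l => ⟨if c.reg a = c.reg b then l else c.pc + 1, c.reg, c.mem, c.drawn⟩

/-- One step of the program `P`: execute the instruction in line `pc`; if there is no such line,
the machine has halted and nothing changes. -/
def step {w : ℕ} (P : List Instr) (ω : ℕ → Bool) (c : Config w) : Config w :=
  (P[c.pc]?).elim c (exec ω c)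

/-- The initial configuration: the input in the first memory cells, everything else zero. -/
def init (w : ℕ) (input : List ℕ) : Config w :=
  ⟨0, fun _ => 0, fun x => BitVec.ofNat w (input.getD x.toNat 0), 0⟩

/-- The configuration after `t` steps. -/
def run (P : List Instr) (w : ℕ) (input : List ℕ) (ω : ℕ → Bool) (t : ℕ) : Config w :=
  (step P ω)^[t] (init w input)

/-- The law of a sequence of independent fair random bits. -/
noncomputable def coins : Measure (ℕ → Bool) :=
  Measure.infinitePi fun _ => ProbabilityTheory.uniformOn Set.univ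

/-- With words of `w = c * (log₂ n + 1)` bits, for every graph `G` with `n` vertices and `m` edges,
given by adjacency lists in any order: the input fits into the memory, `P` has halted after
`T n m` steps whatever the random bits are, and with probability at least `2 / 3` the memory then
holds a maximum matching of `G`. -/
def Solves (P : List Instr) (c : ℕ) (T : ℕ → ℕ → ℕ) : Prop :=
  ∀ (n : ℕ) (G : SimpleGraph (Fin n)) (L : AdjLists G) (w : ℕ), w = c * (Nat.log 2 n + 1) →
    (L.encode.length ≤ 2 ^ w ∧ ∀ x ∈ L.encode, x < 2 ^ w) ∧
    (∀ ω, P.length ≤ (run P w L.encode ω (T n G.edgeSet.ncard)).pc) ∧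
    2 / 3 ≤ coins {ω | ∃ M : G.Subgraph, IsMaximumMatching G M ∧
      Represents (fun v => ((run P w L.encode ω (T n G.edgeSet.ncard)).mem
        (BitVec.ofNat w v)).toNat) M}

end Vale.Agent.P305F35
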