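import Vale.Agent.P305F35.Comp

/-! Transfer of a structured randomized algorithm to the machine with jumps. -/

namespace Vale.Agent.P305F35

open Vale.Agent.P305 Vale.Agent.P305.MM Function MeasureTheory

variable {w : ℕ} {P : List Instr} {ω ω' : ℕ → Bool} {input : List ℕ}

theorem run_succ (t : ℕ) : run P w input ω (t + 1) = step P ω (run P w input ω t) :=
  iterate_succ_apply' _ _ _

theorem run_eq_of_halt {τ t : ℕ} (h : τ ≤ t) (hp : P.length ≤ (run P w input ω τ).pc) :
    run P w input ω t = run P w input ω τ := by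
  induction h with
  | refl => rfl
  | step _ ih => rw [run_succ, ih, step, List.getElem?_eq_none hp, Option.elim_none]

theorem run_drawn (t : ℕ) : (run P w input ω t).drawn ≤ t := by
  induction t with
  | zero => exact le_rfl
  | succ t ih =>
    rw [run_succ, step]
    rcases P[(run P w input ω t).pc]? with _ | x
    · exact ih.trans t.le_succ
    · cases x <;> simp only [Option.elim_some, exec] <;> omega

theorem run_congr (t : ℕ) (h : ∀ j < t, ω j = ω' j) : run P w input ω t = run P w input ω' t := by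
  induction t with
  | zero => rfl
  | succ t ih =>
    have h1 := h _ (Nat.lt_succ_of_le (run_drawn (P := P) (w := w) (ω := ω') (input := input) t))
    rw [run_succ, run_succ, ih fun j hj => h j (by omega), step, step]
    rcases P[(run P w input ω' t).pc]? with _ | x
    · rfl
    · cases x <;> simp only [Option.elim_some, exec, h1]

theorem coins_ge (B : ℕ) (S : (Fin B → Bool) → Prop) (h : 2 * 2 ^ B ≤ 3 * Nat.card {σ // S σ})
    {E : Set (ℕ → Bool)} (hE : ∀ ω σ, S σ → (∀ j < B, ω j = MM.extend σ j) → ω ∈ E) :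
    2 / 3 ≤ coins E := by
  classical
  let C : (Fin B → Bool) → Set (ℕ → Bool) := fun σ =>
    Set.pi (Finset.range B : Set ℕ) fun j => {MM.extend σ j}
  have hC : ∀ σ, coins (C σ) = 2⁻¹ ^ B := fun σ => by
    rw [coins, Measure.infinitePi_pi _ fun _ _ => MeasurableSet.singleton _]
    have : ∀ b : Bool, ProbabilityTheory.uniformOn Set.univ {b} = 2⁻¹ := fun b => by
      rw [ProbabilityTheory.uniformOn_univ]
      simp
    simp only [this, Finset.prod_const, Finset.card_range]
  have hm : ∀ σ, MeasurableSet (C σ) := fun σ =>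
    MeasurableSet.pi (Finset.countable_toSet _) fun _ _ => MeasurableSet.singleton _
  have hd : Set.PairwiseDisjoint (↑(Finset.univ.filter S) : Set (Fin B → Bool)) C := by
    intro σ _ σ' _ hne
    refine Set.disjoint_left.2 fun ω h1 h2 => hne (funext fun j => ?_)
    have e1 := h1 j (by simp)
    have e2 := h2 j (by simp)
    simp only [Set.mem_singleton_iff, MM.extend, j.2, dif_pos, Fin.eta] at e1 e2
    rw [← e1, ← e2]
  have h1 : coins (⋃ σ ∈ Finset.univ.filter S, C σ) ≤ coins E := by
    refine measure_mono (Set.iUnion₂_subset fun σ hσ ω hω => hE ω σ (by simpa using hσ) ?_)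
    exact fun j hj => hω j (by simpa using hj)
  rw [measure_biUnion_finset hd fun σ _ => hm σ] at h1
  simp only [hC, Finset.sum_const, nsmul_eq_mul] at h1
  rw [Nat.card_eq_fintype_card, Fintype.card_subtype] at h
  refine le_trans ?_ h1
  have h2 : (2 : ENNReal) * 2 ^ B ≤ 3 * ((Finset.univ.filter S).card : ENNReal) := by
    exact_mod_cast h
  have h3 : (2 : ENNReal) ^ B * 2⁻¹ ^ B = 1 := by
    rw [← mul_pow, ENNReal.mul_inv_cancel (by simp) (by simp), one_pow]
  rw [ENNReal.div_le_iff (by simp) (by simp)]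
  calc (2 : ENNReal) = 2 * 2 ^ B * 2⁻¹ ^ B := by rw [mul_assoc, h3, mul_one]
    _ ≤ 3 * ((Finset.univ.filter S).card : ENNReal) * 2⁻¹ ^ B := by gcongr
    _ = _ := by ring

theorem length_upTo {n : ℕ} {G : SimpleGraph (Fin n)} (L : AdjLists G) (j : ℕ) :
    (L.upTo j).length ≤ n * n := by
  rw [AdjLists.upTo, List.length_flatMap]
  refine (List.sum_le_card_nsmul _ n fun x hx => ?_).trans ?_
  · obtain ⟨v, -, rfl⟩ := List.mem_map.1 hx
    simpa using (L.nodup v).length_le_card
  · simp only [List.length_map, List.length_take, List.length_finRange, smul_eq_mul]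
    exact Nat.mul_le_mul_right _ (min_le_right _ _)

theorem solves_of_rand {p : RProg} {T : ℕ → ℕ → ℕ} (h : RandSolves p T) :
    ∃ c, 0 < c ∧ Solves (comp p 0) c fun n m => 3 * T n m := by
  classical
  obtain ⟨k, hk⟩ := h
  refine ⟨2 * k + 3, by omega, fun n G L w hw => ?_⟩
  obtain ⟨h1, h2⟩ := hk n G L
  obtain ⟨N, hN⟩ : ∃ N, N = 2 ^ (Nat.log 2 n + 1) := ⟨_, rfl⟩
  have hn : n < N := hN ▸ Nat.lt_pow_succ_log_self one_lt_two n
  have hN2 : 2 ≤ N := hN ▸ Nat.le_self_pow (by omega) 2
  have hwN : 2 ^ w = N ^ (2 * k + 3) := by rw [hw, hN, ← pow_mul, mul_comm]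
  have hm : G.edgeSet.ncard ≤ n * n := by
    rw [← SimpleGraph.coe_edgeFinset, Set.ncard_coe_finset]
    refine G.card_edgeFinset_le_card_choose_two.trans ?_
    rw [Fintype.card_fin, ← pow_two]
    exact Nat.choose_le_pow n 2
  have hq : n + n * n + 2 ≤ N ^ 2 := by nlinarith
  have hW : (n + G.edgeSet.ncard + 2) ^ k < 2 ^ w := by
    rw [hwN]
    calc _ ≤ (N ^ 2) ^ k := Nat.pow_le_pow_left (by omega) k
      _ < _ := by
        rw [← pow_mul]
        exact Nat.pow_lt_pow_right (by omega) (by omega)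
  have h3 : n + n * n + 2 ≤ 2 ^ w :=
    hq.trans (hwN ▸ Nat.pow_le_pow_right (by omega) (by omega))
  have h4 : ∀ x ∈ L.encode, x < 2 ^ w := by
    intro x hx
    simp only [AdjLists.encode, List.mem_cons, List.mem_append, List.mem_map] at hx
    rcases hx with rfl | ⟨j, -, rfl⟩ | ⟨v, -, rfl⟩
    · omega
    · have := length_upTo L j
      omega
    · omega
  have h5 : Rel (init w L.encode) 0 (State.init L.encode) 0 := by
    refine ⟨rfl, fun _ => rfl, fun x => ?_, rfl⟩
    refine (BitVec.toNat_ofNat _ w).trans (Nat.mod_eq_of_lt ?_)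
    by_cases hx : x.toNat < L.encode.length
    · rw [List.getD_eq_getElem _ _ hx]
      exact h4 _ (List.getElem_mem hx)
    · rw [List.getD_eq_default _ _ (not_lt.1 hx)]
      omega
  have h6 : ∀ {ω t s i}, RExec ((n + G.edgeSet.ncard + 2) ^ k) ω p (State.init L.encode) 0 t s i →
      ∃ τ ≤ 3 * t, Rel (run (comp p 0) w L.encode ω τ) (comp p 0).length s i := by
    intro ω t s i h
    have := go_comp (P := comp p 0) hW h 0 (fun i x hx => by rwa [zero_add]) _ h5
    rwa [zero_add, ← length_comp p 0] at this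
  have h7 : ∀ ω, (comp p 0).length ≤
      (run (comp p 0) w L.encode ω (3 * T n G.edgeSet.ncard)).pc := by
    intro ω
    obtain ⟨t, s, i, a1, a2⟩ := h1 ω
    obtain ⟨τ, a3, a4⟩ := h6 a1
    rw [run_eq_of_halt (τ := τ) (by omega) a4.pc.ge]
    exact a4.pc.ge
  refine ⟨⟨?_, h4⟩, h7, coins_ge _ _ (h2 (3 * T n G.edgeSet.ncard) (by omega)) ?_⟩
  · have := length_upTo L n
    simp only [AdjLists.encode, List.length_cons, List.length_append, List.length_map,
      List.length_range]
    omega
  · rintro ω σ ⟨t, s, i, M, a1, a2, a3⟩ hω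
    obtain ⟨τ, -, a4⟩ := h6 a1
    have a5 : run (comp p 0) w L.encode ω (3 * T n G.edgeSet.ncard) =
        run (comp p 0) w L.encode (MM.extend σ) τ := by
      rw [run_congr _ hω]
      rcases le_total τ (3 * T n G.edgeSet.ncard) with a | a
      · exact run_eq_of_halt a a4.pc.ge
      · exact (run_eq_of_halt a (h7 _)).symm
    refine ⟨M, a2, fun v => ?_⟩
    have a6 : (v : ℕ) % 2 ^ w = v := Nat.mod_eq_of_lt (by omega)
    simp only [a5, a4.mem, BitVec.toNat_ofNat, a6]
    exact a3 v

end Vale.Agent.P305F35
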